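import Vale.Agent.P254.Uncond.Req.Data

/-!
Kernel checks of the intervals 1–15 of the certificate of `Requirement (21/40) (774/10000)`.
-/

namespace Vale.Agent.P254.Uncond.Req

open Check

set_option maxRecDepth 10000
set_option linter.defProp false

def cell1_ok :
    RCell.ok spl e₁ first.b first.eb cell1 = true := by decide +kernel

def cell2_ok :
    RCell.ok spl e₁ cell1.b cell1.eb cell2 = true := by decide +kernel

def cell3_ok :
    RCell.ok spl e₁ cell2.b cell2.eb cell3 = true := by decide +kernel

def cell4_ok :
    RCell.ok spl e₁ cell3.b cell3.eb cell4 = true := by decide +kernel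

def cell5_ok :
    RCell.ok spl e₁ cell4.b cell4.eb cell5 = true := by decide +kernel

def cell6_ok :
    RCell.ok spl e₁ cell5.b cell5.eb cell6 = true := by decide +kernel

def cell7_ok :
    RCell.ok spl e₁ cell6.b cell6.eb cell7 = true := by decide +kernel

def cell8_ok :
    RCell.ok spl e₁ cell7.b cell7.eb cell8 = true := by decide +kernel

def cell9_ok :
    RCell.ok spl e₁ cell8.b cell8.eb cell9 = true := by decide +kernel

def cell10_ok :
    RCell.ok spl e₁ cell9.b cell9.eb cell10 = true := by decide +kernel

def cell11_ok :
    RCell.ok spl e₁ cell10.b cell10.eb cell11 = true := by decide +kernel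

def cell12_ok :
    RCell.ok spl e₁ cell11.b cell11.eb cell12 = true := by decide +kernel

def cell13_ok :
    RCell.ok spl e₁ cell12.b cell12.eb cell13 = true := by decide +kernel

def cell14_ok :
    RCell.ok spl e₁ cell13.b cell13.eb cell14 = true := by decide +kernel

def cell15_ok :
    RCell.ok spl e₁ cell14.b cell14.eb cell15 = true := by decide +kernel

end Vale.Agent.P254.Uncond.Req
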