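import Vale.Agent.P254.Uncond.Req.Data

/-!
Kernel checks of the intervals 16–20 of the certificate of `Requirement (21/40) (774/10000)`.
-/

namespace Vale.Agent.P254.Uncond.Req

open Check

set_option maxRecDepth 10000
set_option linter.defProp false

def cell16_ok :
    RCell.ok spl e₁ cell15.b cell15.eb cell16 = true := by decide +kernel

def cell17_ok :
    RCell.ok spl e₁ cell16.b cell16.eb cell17 = true := by decide +kernel

def cell18_ok :
    RCell.ok spl e₁ cell17.b cell17.eb cell18 = true := by decide +kernel

def cell19_ok :
    RCell.ok spl e₁ cell18.b cell18.eb cell19 = true := by decide +kernel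

def cell20_ok :
    RCell.ok spl e₁ cell19.b cell19.eb cell20 = true := by decide +kernel

end Vale.Agent.P254.Uncond.Req
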