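import Vale.Agent.P254.Uncond.Req.Data

/-!
Kernel checks of the intervals 21–23 of the certificate of `Requirement (21/40) (774/10000)`.
-/

namespace Vale.Agent.P254.Uncond.Req

open Check

set_option maxRecDepth 10000
set_option linter.defProp false

def cell21_ok :
    RCell.ok spl e₁ cell20.b cell20.eb cell21 = true := by decide +kernel

def cell22_ok :
    RCell.ok spl e₁ cell21.b cell21.eb cell22 = true := by decide +kernel

def cell23_ok :
    RCell.ok spl e₁ cell22.b cell22.eb cell23 = true := by decide +kernel

end Vale.Agent.P254.Uncond.Req
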