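import Vale.Agent.P254.Uncond.Req.Data

/-!
Kernel checks of the intervals 24–27 of the certificate of `Requirement (21/40) (774/10000)`.
-/

namespace Vale.Agent.P254.Uncond.Req

open Check

set_option maxRecDepth 10000
set_option linter.defProp false

def cell24_ok :
    RCell.ok spl e₁ cell23.b cell23.eb cell24 = true := by decide +kernel

def cell25_ok :
    RCell.ok spl e₁ cell24.b cell24.eb cell25 = true := by decide +kernel

def cell26_ok :
    RCell.ok spl e₁ cell25.b cell25.eb cell26 = true := by decide +kernel

def cell27_ok :
    RCell.ok spl e₁ cell26.b cell26.eb cell27 = true := by decide +kernel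

end Vale.Agent.P254.Uncond.Req
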