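import Vale.Agent.P254.Uncond.Req.Data

/-!
Kernel checks of the intervals 28–35 of the certificate of `Requirement (21/40) (774/10000)`.
-/

namespace Vale.Agent.P254.Uncond.Req

open Check

set_option maxRecDepth 10000
set_option linter.defProp false

def cell28_ok :
    RCell.ok spl e₁ cell27.b cell27.eb cell28 = true := by decide +kernel

def cell29_ok :
    RCell.ok spl e₁ cell28.b cell28.eb cell29 = true := by decide +kernel

def cell30_ok :
    RCell.ok spl e₁ cell29.b cell29.eb cell30 = true := by decide +kernel

def cell31_ok :
    RCell.ok spl e₁ cell30.b cell30.eb cell31 = true := by decide +kernel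

def cell32_ok :
    RCell.ok spl e₁ cell31.b cell31.eb cell32 = true := by decide +kernel

def cell33_ok :
    RCell.ok spl e₁ cell32.b cell32.eb cell33 = true := by decide +kernel

def cell34_ok :
    RCell.ok spl e₁ cell33.b cell33.eb cell34 = true := by decide +kernel

def cell35_ok :
    RCell.ok spl e₁ cell34.b cell34.eb cell35 = true := by decide +kernel

end Vale.Agent.P254.Uncond.Req
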