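import Vale.Agent.P254.Uncond.Req.Data

/-!
Kernel checks of the intervals 36–40 of the certificate of `Requirement (21/40) (774/10000)`.
-/

namespace Vale.Agent.P254.Uncond.Req

open Check

set_option maxRecDepth 10000
set_option linter.defProp false

def cell36_ok :
    RCell.ok spl e₁ cell35.b cell35.eb cell36 = true := by decide +kernel

def cell37_ok :
    RCell.ok spl e₁ cell36.b cell36.eb cell37 = true := by decide +kernel

def cell38_ok :
    RCell.ok spl e₁ cell37.b cell37.eb cell38 = true := by decide +kernel

def cell39_ok :
    RCell.ok spl e₁ cell38.b cell38.eb cell39 = true := by decide +kernel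

def cell40_ok :
    RCell.ok spl e₁ cell39.b cell39.eb cell40 = true := by decide +kernel

end Vale.Agent.P254.Uncond.Req
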