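import Vale.Agent.P254.Uncond.Req.Data

/-!
Kernel checks of the intervals 41–43 of the certificate of `Requirement (21/40) (774/10000)`.
-/

namespace Vale.Agent.P254.Uncond.Req

open Check

set_option maxRecDepth 10000
set_option linter.defProp false

def cell41_ok :
    RCell.ok spl e₁ cell40.b cell40.eb cell41 = true := by decide +kernel

def cell42_ok :
    RCell.ok spl e₁ cell41.b cell41.eb cell42 = true := by decide +kernel

def cell43_ok :
    RCell.ok spl e₁ cell42.b cell42.eb cell43 = true := by decide +kernel

end Vale.Agent.P254.Uncond.Req
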