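import Vale.Agent.P254.Uncond.Req.Data

/-!
Kernel checks of the intervals 46–50 of the certificate of `Requirement (21/40) (774/10000)`.
-/

namespace Vale.Agent.P254.Uncond.Req

open Check

set_option maxRecDepth 10000
set_option linter.defProp false

def cell46_ok :
    RCell.ok spl e₁ cell45.b cell45.eb cell46 = true := by decide +kernel

def cell47_ok :
    RCell.ok spl e₁ cell46.b cell46.eb cell47 = true := by decide +kernel

def cell48_ok :
    RCell.ok spl e₁ cell47.b cell47.eb cell48 = true := by decide +kernel

def cell49_ok :
    RCell.ok spl e₁ cell48.b cell48.eb cell49 = true := by decide +kernel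

def cell50_ok :
    RCell.ok spl e₁ cell49.b cell49.eb cell50 = true := by decide +kernel

end Vale.Agent.P254.Uncond.Req
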