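import Vale.Agent.P254.Uncond.Req.Data

/-!
Kernel checks of the intervals 51–55 of the certificate of `Requirement (21/40) (774/10000)`.
-/

namespace Vale.Agent.P254.Uncond.Req

open Check

set_option maxRecDepth 10000
set_option linter.defProp false

def cell51_ok :
    RCell.ok spl e₁ cell50.b cell50.eb cell51 = true := by decide +kernel

def cell52_ok :
    RCell.ok spl e₁ cell51.b cell51.eb cell52 = true := by decide +kernel

def cell53_ok :
    RCell.ok spl e₁ cell52.b cell52.eb cell53 = true := by decide +kernel

def cell54_ok :
    RCell.ok spl e₁ cell53.b cell53.eb cell54 = true := by decide +kernel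

def cell55_ok :
    RCell.ok spl e₁ cell54.b cell54.eb cell55 = true := by decide +kernel

end Vale.Agent.P254.Uncond.Req
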