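import Vale.Agent.P254.Uncond.Req.Cells0
import Vale.Agent.P254.Uncond.Req.Cells1
import Vale.Agent.P254.Uncond.Req.Cells2
import Vale.Agent.P254.Uncond.Req.Cells3
import Vale.Agent.P254.Uncond.Req.Cells4
import Vale.Agent.P254.Uncond.Req.Cells5
import Vale.Agent.P254.Uncond.Req.Cells6
import Vale.Agent.P254.Uncond.Req.Cells7
import Vale.Agent.P254.Uncond.Req.Cells8
import Vale.Agent.P254.Uncond.Req.Cells9

/-!
`Requirement (21/40) (774/10000)` from its certificate.
-/

namespace Vale.Agent.P254.Uncond.Req

open Check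

set_option maxRecDepth 10000
set_option linter.defProp false

lemma allOk_cons {D : ReqCert} {a : Dy} {ea : ExpB} {c : RCell} {r : List RCell}
    (h : RCell.ok D.P D.e₁ a ea c = true) (h' : D.allOk c.b c.eb r = true) :
    D.allOk a ea (c :: r) = true := by
  simp [ReqCert.allOk, h, h']

lemma ok_of {D : ReqCert} {l : Dy} (hl : (D.cells.getLast?.map RCell.b).getD D.first.b = l)
    (h₀ : (decide (0 < D.ed) && decide (0 < D.P.S₀.m) && decide (0 < D.P.S₁.m) &&
      D.P.regular l && (Dy.int 1).le (D.P.K.mul ((Dy.int 2).mul D.P.S₀)) &&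
      D.e₁.ok (D.P.S₁.mul D.P.S₁) && D.eLS.ok D.LS && D.P.S₀.le D.eLS.lo &&
      OneCert.knotsOk D.P.β && OneCert.knotsOk D.P.γ && OneCert.exp0.ok (Dy.int 0)) = true)
    (h₁ : D.firstOk = true) (h₂ : D.allOk D.first.b D.first.eb D.cells = true)
    (h₃ : D.finalOk = true) : D.ok = true := by
  subst hl
  simp only [Bool.and_eq_true] at h₀
  simp [ReqCert.ok, h₀, h₁, h₂, h₃]

def head_ok : (decide (0 < cert.ed) && decide (0 < cert.P.S₀.m) && decide (0 < cert.P.S₁.m) &&
    cert.P.regular cell55.b && (Dy.int 1).le (cert.P.K.mul ((Dy.int 2).mul cert.P.S₀)) &&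
    cert.e₁.ok (cert.P.S₁.mul cert.P.S₁) && cert.eLS.ok cert.LS && cert.P.S₀.le cert.eLS.lo &&
    OneCert.knotsOk cert.P.β && OneCert.knotsOk cert.P.γ && OneCert.exp0.ok (Dy.int 0)) = true := by
  decide +kernel

def first_ok : cert.firstOk = true := by decide +kernel

def last_ok : cert.tailOk cell55.b cell55.eb = true := by decide +kernel

def final_ok : cert.finalOk = true := by decide +kernel

theorem all_ok : cert.allOk first.b first.eb cells = true :=
  allOk_cons (D := cert) cell1_ok <|
  allOk_cons (D := cert) cell2_ok <|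
  allOk_cons (D := cert) cell3_ok <|
  allOk_cons (D := cert) cell4_ok <|
  allOk_cons (D := cert) cell5_ok <|
  allOk_cons (D := cert) cell6_ok <|
  allOk_cons (D := cert) cell7_ok <|
  allOk_cons (D := cert) cell8_ok <|
  allOk_cons (D := cert) cell9_ok <|
  allOk_cons (D := cert) cell10_ok <|
  allOk_cons (D := cert) cell11_ok <|
  allOk_cons (D := cert) cell12_ok <|
  allOk_cons (D := cert) cell13_ok <|
  allOk_cons (D := cert) cell14_ok <|
  allOk_cons (D := cert) cell15_ok <|
  allOk_cons (D := cert) cell16_ok <|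
  allOk_cons (D := cert) cell17_ok <|
  allOk_cons (D := cert) cell18_ok <|
  allOk_cons (D := cert) cell19_ok <|
  allOk_cons (D := cert) cell20_ok <|
  allOk_cons (D := cert) cell21_ok <|
  allOk_cons (D := cert) cell22_ok <|
  allOk_cons (D := cert) cell23_ok <|
  allOk_cons (D := cert) cell24_ok <|
  allOk_cons (D := cert) cell25_ok <|
  allOk_cons (D := cert) cell26_ok <|
  allOk_cons (D := cert) cell27_ok <|
  allOk_cons (D := cert) cell28_ok <|
  allOk_cons (D := cert) cell29_ok <|
  allOk_cons (D := cert) cell30_ok <|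
  allOk_cons (D := cert) cell31_ok <|
  allOk_cons (D := cert) cell32_ok <|
  allOk_cons (D := cert) cell33_ok <|
  allOk_cons (D := cert) cell34_ok <|
  allOk_cons (D := cert) cell35_ok <|
  allOk_cons (D := cert) cell36_ok <|
  allOk_cons (D := cert) cell37_ok <|
  allOk_cons (D := cert) cell38_ok <|
  allOk_cons (D := cert) cell39_ok <|
  allOk_cons (D := cert) cell40_ok <|
  allOk_cons (D := cert) cell41_ok <|
  allOk_cons (D := cert) cell42_ok <|
  allOk_cons (D := cert) cell43_ok <|
  allOk_cons (D := cert) cell44_ok <|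
  allOk_cons (D := cert) cell45_ok <|
  allOk_cons (D := cert) cell46_ok <|
  allOk_cons (D := cert) cell47_ok <|
  allOk_cons (D := cert) cell48_ok <|
  allOk_cons (D := cert) cell49_ok <|
  allOk_cons (D := cert) cell50_ok <|
  allOk_cons (D := cert) cell51_ok <|
  allOk_cons (D := cert) cell52_ok <|
  allOk_cons (D := cert) cell53_ok <|
  allOk_cons (D := cert) cell54_ok <|
  allOk_cons (D := cert) cell55_ok <|
  last_ok

theorem cert_ok : cert.ok = true :=
  ok_of (l := cell55.b) rfl head_ok first_ok all_ok final_ok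

/-- The requirement used above the largest knot. -/
theorem requirement_top : Requirement (21 / 40) (774 / 10000) :=
  ReqCert.sound (D := cert) cert_ok (by norm_num [cert, spl]) (by norm_num [cert])

end Vale.Agent.P254.Uncond.Req
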